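import Vale.Agent.P352G.Defs
import Vale.Agent.P352X.EG.SG
import Vale.Agent.P352.BW.H649.Lw

/-!
# P352G, row KIT: the grading, parities of operators, the twist, the re-signed group law
-/

set_option linter.all false

open Filter Topology
open scoped ComplexConjugate

noncomputable section

namespace Vale.Agent.P352G

open Vale.Agent.P352 Vale.Agent.P352.GF Vale.Agent.P352.BW Vale.Agent.P352.H246 Vale.Agent.P352.H496
open Vale.Agent.P352.H15 Vale.Agent.P352.H755 Vale.Agent.P352X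
open Vale.Agent.P132 (ModData exists_modData)
open UniformSpace (Completion)

/-! ## the groups `AN` -/

section an

variable {a b : V} {L L' M : Ix → V}

theorem AN.one (a : V) : AN a GF.one := fun x _ => ⟨0, by rw [H26.sim_one0, zero_smul, add_zero]⟩

theorem AN.bst_a (a b : V) (α β : ℝ) : AN a (bst a b α β) := fun x hx =>
  ⟨α * GF.mdot b x, by rw [sim_bst, hx, mul_zero, zero_smul, add_zero]⟩

theorem AN.bst_b (a b : V) (α β : ℝ) : AN b (bst a b α β) := fun x hx =>
  ⟨β * GF.mdot a x, by rw [sim_bst, hx, mul_zero, zero_smul, add_zero]⟩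

theorem AN.nrt (a w : V) : AN a (H746.nrt a w) := fun x hx =>
  ⟨-(2 * GF.mdot w x), by rw [H746.sim_nrt, hx]; simp [sub_eq_add_neg]⟩

theorem AN.bq_a (a b : V) (t : ℝ) : AN a (T.bq a b t) := AN.bst_a _ _ _ _

theorem AN.bq_b (a b : V) (t : ℝ) : AN b (T.bq a b t) := AN.bst_b _ _ _ _

theorem AN.lsc_a (r s : ℝ) : AN va (TPD.Lsc r s) := AN.bst_a _ _ _ _

theorem AN.lsc_b (r s : ℝ) : AN vb (TPD.Lsc r s) := AN.bst_b _ _ _ _

theorem AN.of_eq (h : AN a L) (e : ∀ x, sim 1 L' 0 x = sim 1 L 0 x) : AN a L' := fun x hx => by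
  rw [e]; exact h x hx

theorem AN.smul {c : ℝ} (hc : c ≠ 0) (h : AN a L) : AN (c • a) L := fun x hx => by
  rw [md_smul_l] at hx
  obtain ⟨k, hk⟩ := h x ((mul_eq_zero.1 hx).resolve_left hc)
  exact ⟨k / c, by rw [hk, smul_smul, div_mul_cancel₀ _ hc]⟩

theorem AN.mul (ha : IsNull a) (h : AN a L) (h' : AN a L') : AN a fun m => sim 1 L 0 (L' m) :=
  fun x hx => by
    obtain ⟨c, hc⟩ := h' x hx
    obtain ⟨c', hc'⟩ := h (x + c • a) (by rw [md_add, md_smul, hx, ha.1]; simp)
    exact ⟨c + c', by rw [Kin.sim_comp, hc, hc', add_smul, add_assoc]⟩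

/-- `L a` is a nonzero multiple of `a` -/
theorem AN.ray (ha : IsNull a) (hL : IsLor L) (h : AN a L) :
    ∃ k : ℝ, k ≠ 0 ∧ sim 1 L 0 a = k • a := by
  obtain ⟨c, hc⟩ := h a ha.1
  refine ⟨1 + c, fun h0 => ?_, by rw [hc, add_smul, one_smul]⟩
  have h1 : sim 1 L 0 a = 0 := by
    rw [hc, show a + c • a = (1 + c) • a by rw [add_smul, one_smul], h0, zero_smul]
  have h2 := sim_linv2 hL a
  rw [h1, Grp.sim_zero] at h2
  have h3 := ha.2
  rw [← h2] at h3
  exact lt_irrefl _ h3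

theorem AN.inv (ha : IsNull a) (hL : IsLor L) (h : AN a L) : AN a (linv L) := fun x hx => by
  obtain ⟨k, hk, e⟩ := h.ray ha hL
  obtain ⟨c, hc⟩ := h x hx
  have e1 : sim 1 (linv L) 0 a = k⁻¹ • a := by
    have h2 := sim_linv2 hL a
    rw [e, simL_smul] at h2
    rw [eq_inv_smul_iff₀ hk, h2]
  have h3 := sim_linv2 hL x
  rw [hc, simL_add, simL_smul, e1, smul_smul] at h3
  exact ⟨-(c * k⁻¹), by rw [neg_smul, ← sub_eq_add_neg, eq_sub_iff_add_eq, h3]⟩

/-- conjugation: `M' = L M L⁻¹` is in the group of `L a` -/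
theorem AN.conj {M' : Ix → V} (hL : IsLor L) (h : AN a M)
    (e : ∀ x, sim 1 M' 0 (sim 1 L 0 x) = sim 1 L 0 (sim 1 M 0 x)) : AN (sim 1 L 0 a) M' :=
  fun y hy => by
    have h1 : GF.mdot a (sim 1 (linv L) 0 y) = 0 := by
      rw [← md_LL hL, sim_linv hL]; exact hy
    obtain ⟨c, hc⟩ := h _ h1
    have h2 := e (sim 1 (linv L) 0 y)
    rw [sim_linv hL, hc, simL_add, simL_smul, sim_linv hL] at h2
    exact ⟨c, h2⟩

theorem OkL.one_l (L : Ix → V) : OkL GF.one L := .inl rfl

theorem OkL.one_r (L : Ix → V) : OkL L GF.one := .inr (.inl rfl)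

theorem OkL.an (ha : IsNull a) (h : AN a L) (h' : AN a L') : OkL L L' := .inr (.inr ⟨a, ha, h, h'⟩)

theorem OkL.symm (h : OkL L L') : OkL L' L :=
  h.elim (fun e => .inr (.inl e)) fun h => h.elim .inl fun ⟨a, ha, h, h'⟩ => .an ha h' h

theorem OkL.inv (ha : IsNull a) (hL : IsLor L) (h : AN a L) : OkL L (linv L) :=
  .an ha h (h.inv ha hL)

theorem OkL.bst (ha : IsNull a) (b : V) (α β α' β' : ℝ) : OkL (bst a b α β) (bst a b α' β') :=
  .an ha (.bst_a _ _ _ _) (.bst_a _ _ _ _)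

theorem OkL.bq (ha : IsNull a) (b : V) (t t' : ℝ) : OkL (T.bq a b t) (T.bq a b t') :=
  .bst ha _ _ _ _ _

theorem OkL.nrt (ha : IsNull a) (w w' : V) : OkL (H746.nrt a w) (H746.nrt a w') :=
  .an ha (.nrt _ _) (.nrt _ _)

theorem OkL.bst_nrt_a (ha : IsNull a) (b w : V) (α β : ℝ) :
    OkL (H755.bst a b α β) (H746.nrt a w) := .an ha (.bst_a _ _ _ _) (.nrt _ _)

theorem OkL.bst_nrt_b (a : V) (hb : IsNull b) (w : V) (α β : ℝ) :
    OkL (H755.bst a b α β) (H746.nrt b w) := .an hb (.bst_b _ _ _ _) (.nrt _ _)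

end an

variable {D : Type*} [NormedAddCommGroup D] [InnerProductSpace ℂ D] [GrD D]

/-! ## the algebra of the grading -/

/-- the grading is a self-adjoint involution -/
structure G0 (D : Type*) [NormedAddCommGroup D] [InnerProductSpace ℂ D] [GrD D] : Prop where
  g2 : Gm D * Gm D = 1
  gs : star (Gm D) = Gm D

section alg

variable {X Y : Completion D →L[ℂ] Completion D}

theorem evp_add_odp (X : Completion D →L[ℂ] Completion D) : evp' X + odp X = X := by
  unfold evp' odp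
  module

theorem Ev.zero : Ev (0 : Completion D →L[ℂ] Completion D) := by simp [Ev]

theorem Od.zero : Od (0 : Completion D →L[ℂ] Completion D) := by simp [Od]

theorem Ev.add (h : Ev X) (h' : Ev Y) : Ev (X + Y) := by
  unfold Ev at *; rw [mul_add, add_mul, h, h']

theorem Ev.sub (h : Ev X) (h' : Ev Y) : Ev (X - Y) := by
  unfold Ev at *; rw [mul_sub, sub_mul, h, h']

theorem Ev.smul (h : Ev X) (c : ℂ) : Ev (c • X) := by
  unfold Ev at *; rw [mul_smul_comm, smul_mul_assoc, h]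

theorem Od.add (h : Od X) (h' : Od Y) : Od (X + Y) := by
  unfold Od at *; rw [mul_add, add_mul, h, h', neg_add]

theorem Od.smul (h : Od X) (c : ℂ) : Od (c • X) := by
  unfold Od at *; rw [mul_smul_comm, smul_mul_assoc, h, smul_neg]

theorem Ev.evp (h : Ev X) : evp' X = X := by
  unfold evp'; rw [show Gm D * X * Gm D = X from h]; module

theorem Ev.odp (h : Ev X) : odp X = 0 := by
  unfold P352G.odp; rw [show Gm D * X * Gm D = X from h]; module

theorem Od.evp (h : Od X) : evp' X = 0 := by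
  unfold evp'; rw [show Gm D * X * Gm D = -X from h]; module

theorem Od.odp (h : Od X) : odp X = X := by
  unfold P352G.odp; rw [show Gm D * X * Gm D = -X from h]; module

theorem Ev.tw (h : Ev X) : tw X = X := by
  unfold P352G.tw; rw [h.evp, h.odp, zero_mul, add_zero]

theorem Od.tw (h : Od X) : tw X = X * Gm D := by
  unfold P352G.tw; rw [h.evp, h.odp, zero_add]

theorem evp_add (X Y : Completion D →L[ℂ] Completion D) : evp' (X + Y) = evp' X + evp' Y := by
  unfold evp'; rw [mul_add, add_mul]; module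

theorem odp_add (X Y : Completion D →L[ℂ] Completion D) : odp (X + Y) = odp X + odp Y := by
  unfold odp; rw [mul_add, add_mul]; module

theorem tw_add (X Y : Completion D →L[ℂ] Completion D) : tw (X + Y) = tw X + tw Y := by
  unfold tw; rw [evp_add, odp_add, add_mul]; abel

theorem evp_smul (c : ℂ) (X : Completion D →L[ℂ] Completion D) : evp' (c • X) = c • evp' X := by
  unfold evp'; rw [mul_smul_comm, smul_mul_assoc]; module

theorem odp_smul (c : ℂ) (X : Completion D →L[ℂ] Completion D) : odp (c • X) = c • odp X := by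
  unfold odp; rw [mul_smul_comm, smul_mul_assoc]; module

theorem tw_smul (c : ℂ) (X : Completion D →L[ℂ] Completion D) : tw (c • X) = c • tw X := by
  unfold tw; rw [evp_smul, odp_smul, smul_mul_assoc, smul_add]

theorem tw_eq (X : Completion D →L[ℂ] Completion D) :
    tw X = (2⁻¹ : ℂ) • (X + Gm D * X * Gm D + (X - Gm D * X * Gm D) * Gm D) := by
  unfold tw evp' odp; rw [smul_mul_assoc, ← smul_add]

namespace G0

variable (g : G0 D)
include g

theorem gg (X : Completion D →L[ℂ] Completion D) : Gm D * (Gm D * X) = X := by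
  rw [← mul_assoc, g.g2, one_mul]

theorem gg' (X : Completion D →L[ℂ] Completion D) : X * Gm D * Gm D = X := by
  rw [mul_assoc, g.g2, mul_one]

theorem gz (z : Completion D) : Gm D (Gm D z) = z := by
  rw [← ContinuousLinearMap.mul_apply, g.g2]; rfl

theorem herm (z w : Completion D) : inner ℂ (Gm D z) w = inner ℂ z (Gm D w) := by
  conv_lhs => rw [← g.gs]
  rw [ContinuousLinearMap.star_eq_adjoint, ContinuousLinearMap.adjoint_inner_left]

theorem inn (z w : Completion D) : inner ℂ (Gm D z) (Gm D w) = inner ℂ z w := by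
  rw [g.herm, g.gz]

theorem norm (z : Completion D) : ‖Gm D z‖ = ‖z‖ := by
  rw [@norm_eq_sqrt_re_inner ℂ, @norm_eq_sqrt_re_inner ℂ _ _ _ _ z, g.inn]

theorem uni : Gm D ∈ unitary (Completion D →L[ℂ] Completion D) :=
  ⟨by rw [g.gs, g.g2], by rw [g.gs, g.g2]⟩

/-- even and odd vectors are orthogonal -/
theorem perp {z w : Completion D} (hz : Gm D z = z) (hw : Gm D w = -w) : inner ℂ z w = 0 := by
  have h := g.inn z w
  rw [hz, hw, inner_neg_right] at h
  linear_combination (-1 / 2 : ℂ) * h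

theorem ev_iff : Ev X ↔ Gm D * X = X * Gm D :=
  ⟨fun h => by conv_rhs => rw [← show Gm D * X * Gm D = X from h, g.gg'],
    fun h => by unfold Ev; rw [h, g.gg']⟩

theorem od_iff : Od X ↔ Gm D * X = -(X * Gm D) :=
  ⟨fun h => by rw [← neg_mul, ← show Gm D * X * Gm D = -X from h, g.gg'],
    fun h => by unfold Od; rw [h, neg_mul, g.gg']⟩

theorem ev_apply (h : Ev X) (z : Completion D) : Gm D (X z) = X (Gm D z) := by
  rw [← ContinuousLinearMap.mul_apply, g.ev_iff.1 h]; rfl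

theorem od_apply (h : Od X) (z : Completion D) : Gm D (X z) = -X (Gm D z) := by
  rw [← ContinuousLinearMap.mul_apply, g.od_iff.1 h]; rfl

theorem ev_of_apply (h : ∀ z, Gm D (X z) = X (Gm D z)) : Ev X :=
  g.ev_iff.2 (ContinuousLinearMap.ext h)

theorem od_of_apply (h : ∀ z, Gm D (X z) = -X (Gm D z)) : Od X :=
  g.od_iff.2 (ContinuousLinearMap.ext h)

theorem ev_one : Ev (1 : Completion D →L[ℂ] Completion D) := by unfold Ev; rw [mul_one, g.g2]

theorem ev_gm : Ev (Gm D) := by unfold Ev; rw [g.g2, one_mul]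

theorem cj_mul (X Y : Completion D →L[ℂ] Completion D) :
    Gm D * (X * Y) * Gm D = Gm D * X * Gm D * (Gm D * Y * Gm D) := by
  simp only [mul_assoc, g.gg]

theorem cj_star (X : Completion D →L[ℂ] Completion D) :
    star (Gm D * X * Gm D) = Gm D * star X * Gm D := by
  rw [star_mul, star_mul, g.gs, mul_assoc]

theorem cj_cj (X : Completion D →L[ℂ] Completion D) :
    Gm D * (Gm D * X * Gm D) * Gm D = X := by
  simp only [mul_assoc, g.gg, g.g2, mul_one]

theorem ev_mul (h : Ev X) (h' : Ev Y) : Ev (X * Y) := by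
  unfold Ev at *; rw [g.cj_mul, h, h']

theorem od_mul_od (h : Od X) (h' : Od Y) : Ev (X * Y) := by
  unfold Ev Od at *; rw [g.cj_mul, h, h', neg_mul_neg]

theorem ev_mul_od (h : Ev X) (h' : Od Y) : Od (X * Y) := by
  unfold Ev Od at *; rw [g.cj_mul, h, h', mul_neg]

theorem od_mul_ev (h : Od X) (h' : Ev Y) : Od (X * Y) := by
  unfold Ev Od at *; rw [g.cj_mul, h, h', neg_mul]

theorem ev_star (h : Ev X) : Ev (star X) := by
  unfold Ev at *; rw [← g.cj_star, h]

theorem od_star (h : Od X) : Od (star X) := by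
  unfold Od at *; rw [← g.cj_star, h, star_neg]

theorem ev_evp (X : Completion D →L[ℂ] Completion D) : Ev (evp' X) := by
  refine Ev.smul ?_ _
  unfold Ev
  rw [mul_add, add_mul, g.cj_cj, add_comm]

theorem od_odp (X : Completion D →L[ℂ] Completion D) : Od (odp X) := by
  refine Od.smul ?_ _
  unfold Od
  rw [mul_sub, sub_mul, g.cj_cj, neg_sub]

theorem star_evp (X : Completion D →L[ℂ] Completion D) : star (evp' X) = evp' (star X) := by
  unfold evp'; rw [star_smul, star_add, g.cj_star]; simp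

theorem star_odp (X : Completion D →L[ℂ] Completion D) : star (odp X) = odp (star X) := by
  unfold odp; rw [star_smul, star_sub, g.cj_star]; simp

theorem od_g (h : Od X) : Od (X * Gm D) := g.od_mul_ev h g.ev_gm

theorem evp_tw (X : Completion D →L[ℂ] Completion D) : evp' (tw X) = evp' X := by
  unfold tw; rw [evp_add, (g.ev_evp X).evp, (g.od_g (g.od_odp X)).evp, add_zero]

theorem odp_tw (X : Completion D →L[ℂ] Completion D) : odp (tw X) = odp X * Gm D := by
  unfold tw; rw [odp_add, (g.ev_evp X).odp, (g.od_g (g.od_odp X)).odp, zero_add]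

theorem tw_tw (X : Completion D →L[ℂ] Completion D) : tw (tw X) = X := by
  rw [tw, g.evp_tw, g.odp_tw, g.gg', evp_add_odp]

/-- the adjoint of the twist -/
theorem star_tw (X : Completion D →L[ℂ] Completion D) :
    star (tw X) = tw (Gm D * star X * Gm D) := by
  have e1 : evp' (Gm D * star X * Gm D) = evp' (star X) := by
    unfold evp'; rw [g.cj_cj, add_comm]
  have e2 : odp (Gm D * star X * Gm D) = -odp (star X) := by
    unfold odp; rw [g.cj_cj, ← smul_neg, neg_sub]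
  unfold tw
  rw [star_add, star_mul, g.gs, g.star_evp, g.star_odp, e1, e2, g.od_iff.1 (g.od_odp _), neg_mul]

theorem cj_tw (X : Completion D →L[ℂ] Completion D) :
    Gm D * tw X * Gm D = tw (Gm D * X * Gm D) := by
  have e1 : evp' (Gm D * X * Gm D) = evp' X := by
    unfold evp'; rw [g.cj_cj, add_comm]
  have e2 : odp (Gm D * X * Gm D) = -odp X := by
    unfold odp; rw [g.cj_cj, ← smul_neg, neg_sub]
  unfold tw
  rw [mul_add, add_mul, g.ev_evp X, g.od_g (g.od_odp X), e1, e2, neg_mul]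

/-- conjugation by an even operator and its partner commutes with the twist -/
theorem tw_conj {U W : Completion D →L[ℂ] Completion D} (hU : Ev U) (hW : Ev W)
    (X : Completion D →L[ℂ] Completion D) : tw (U * X * W) = U * tw X * W := by
  have e : Gm D * (U * X * W) * Gm D = U * (Gm D * X * Gm D) * W := by
    rw [g.cj_mul, g.cj_mul U X, hU, hW]
  have e' := g.ev_iff.1 hW
  rw [tw_eq, tw_eq, e, mul_smul_comm, smul_mul_assoc]
  congr 1
  simp only [mul_add, add_mul, mul_sub, sub_mul, mul_assoc, ← e']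

theorem tw_apply (X : Completion D →L[ℂ] Completion D) {z : Completion D} (hz : Gm D z = z) :
    tw X z = X z := by
  conv_rhs => rw [← evp_add_odp X]
  unfold tw
  rw [ContinuousLinearMap.add_apply, ContinuousLinearMap.add_apply, ContinuousLinearMap.mul_apply,
    hz]

theorem evp_apply (X : Completion D →L[ℂ] Completion D) {z : Completion D} (hz : Gm D z = z) :
    evp' X z = (2⁻¹ : ℂ) • (X z + Gm D (X z)) := by
  unfold evp'
  rw [ContinuousLinearMap.smul_apply, ContinuousLinearMap.add_apply, ContinuousLinearMap.mul_apply,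
    ContinuousLinearMap.mul_apply, hz]

theorem odp_apply (X : Completion D →L[ℂ] Completion D) {z : Completion D} (hz : Gm D z = z) :
    odp X z = (2⁻¹ : ℂ) • (X z - Gm D (X z)) := by
  unfold odp
  rw [ContinuousLinearMap.smul_apply, ContinuousLinearMap.sub_apply, ContinuousLinearMap.mul_apply,
    ContinuousLinearMap.mul_apply, hz]

/-- the commutant of a graded algebra is graded -/
theorem gam_comm {M : VonNeumannAlgebra (Completion D)} (hM : ∀ X ∈ M, Gm D * X * Gm D ∈ M)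
    (hY : Y ∈ M.commutant) : Gm D * Y * Gm D ∈ M.commutant := by
  rw [VonNeumannAlgebra.mem_commutant_iff] at *
  intro X hX
  have h := hY _ (hM X hX)
  calc X * (Gm D * Y * Gm D) = Gm D * (Gm D * X * Gm D * Y) * Gm D := by
        simp only [mul_assoc, g.gg]
    _ = Gm D * Y * Gm D * X := by rw [h]; simp only [mul_assoc, g.g2, mul_one]

end G0

theorem evp_mem {M : VonNeumannAlgebra (Completion D)} (hX : X ∈ M) (h : Gm D * X * Gm D ∈ M) :
    evp' X ∈ M := M.toStarSubalgebra.smul_mem (add_mem hX h) _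

theorem odp_mem {M : VonNeumannAlgebra (Completion D)} (hX : X ∈ M) (h : Gm D * X * Gm D ∈ M) :
    odp X ∈ M := M.toStarSubalgebra.smul_mem (sub_mem hX h) _

end alg

end Vale.Agent.P352G

/-! ## the re-signed representation -/

namespace Vale.Agent.P352.H15.RepZ

open Vale.Agent.P352 Vale.Agent.P352.GF Vale.Agent.P352.BW Vale.Agent.P352.H246 Vale.Agent.P352.H496
open Vale.Agent.P352.H755 Vale.Agent.P352X Vale.Agent.P352G
open Vale.Agent.P352X.EG.SGx (dext)
open UniformSpace (Completion)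

variable {D : Type*} [NormedAddCommGroup D] [InnerProductSpace ℂ D] [GrD D] {Q : Theory D}
  {A : (V → V) → D → D} (R : RepZ Q A) {s s' : ℝ} {L L' : Ix → V}
include R

theorem gdd (v : D) : Gd (Gd v) = v := R.gr.inv v

theorem g0 : G0 D where
  g2 := dext fun v => by rw [mul_apply_eq_comp, R.ext, R.ext, R.gdd]; rfl
  gs := by
    refine ((ContinuousLinearMap.eq_adjoint_iff _ _).2 fun z w => ?_).symm
    refine Completion.induction_on₂ z w (isClosed_eq (by fun_prop) (by fun_prop)) fun v w => ?_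
    rw [R.ext, R.ext, Completion.inner_coe, Completion.inner_coe]
    exact R.gr.herm v w

theorem g2 : Gm D * Gm D = 1 := R.g0.g2

theorem gs : star (Gm D) = Gm D := R.g0.gs

theorem gv : Gm D (om Q) = om Q := by rw [om, R.ext, R.gvac]

theorem gU (s : ℝ) (L : Ix → V) (a : V) : Gm D * Ug Q s L a = Ug Q s L a * Gm D := by
  by_cases h : 0 < s ∧ IsLor L
  · exact dext fun v => by
      rw [mul_apply_eq_comp, mul_apply_eq_comp, Grp.coe h.1 h.2, R.ext, R.ext, Grp.coe h.1 h.2,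
        R.gr.GU _ _ _ _ h.1 h.2]
  · rw [Ug, dif_neg h, mul_one, one_mul]

theorem ev_ug (s : ℝ) (L : Ix → V) (a : V) : Ev (Ug Q s L a) := R.g0.ev_iff.2 (R.gU s L a)

theorem gUz (s : ℝ) (L : Ix → V) (a : V) (z : Completion D) :
    Gm D (Ug Q s L a z) = Ug Q s L a (Gm D z) := R.g0.ev_apply (R.ev_ug s L a) z

theorem gUe (hs : 0 < s) (hL : IsLor L) (a : V) (z : Completion D) :
    Gm D (Ue Q s L a z) = Ue Q s L a (Gm D z) := by
  rw [← Ug_apply Q hs hL, ← Ug_apply Q hs hL, R.gUz]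

theorem ug_mul (a a' : V) (hs : 0 < s) (hs' : 0 < s') (hL : IsLor L) (hL' : IsLor L')
    (h : OkL L L') : Ug Q s L a * Ug Q s' L' a' =
      Ug Q (s * s') (fun m => sim 1 L 0 (L' m)) (sim s L a a') := dext fun v => by
  rw [mul_apply_eq_comp, Grp.coe hs' hL', Grp.coe hs hL, R.mul _ _ _ _ _ _ _ hs hs' hL hL' h,
    Grp.coe (mul_pos hs hs') (ue_lor hL hL')]

theorem ue_mul (a a' : V) (z : Completion D) (hs : 0 < s) (hs' : 0 < s') (hL : IsLor L)
    (hL' : IsLor L') (h : OkL L L') : Ue Q s L a (Ue Q s' L' a' z) =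
      Ue Q (s * s') (fun m => sim 1 L 0 (L' m)) (sim s L a a') z := by
  rw [← Ug_apply Q hs' hL', ← Ug_apply Q hs hL, ← Ug_apply Q (mul_pos hs hs') (ue_lor hL hL'),
    ← R.ug_mul a a' hs hs' hL hL' h]
  rfl

/-- the group law up to the grading -/
theorem ug_mul' (a a' : V) (hs : 0 < s) (hs' : 0 < s') (hL : IsLor L) (hL' : IsLor L') :
    ∃ e : Bool, Ug Q s L a * Ug Q s' L' a' =
      cond e (Gm D) 1 * Ug Q (s * s') (fun m => sim 1 L 0 (L' m)) (sim s L a a') := by
  rcases R.gr.mul s L a s' L' a' hs hs' hL hL' with e | e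
  · exact ⟨false, dext fun v => by
      rw [mul_apply_eq_comp, Grp.coe hs' hL', Grp.coe hs hL, e, cond_false, one_mul,
        Grp.coe (mul_pos hs hs') (ue_lor hL hL')]⟩
  · exact ⟨true, dext fun v => by
      rw [mul_apply_eq_comp, Grp.coe hs' hL', Grp.coe hs hL, e.2.2, cond_true, mul_apply_eq_comp,
        Grp.coe (mul_pos hs hs') (ue_lor hL hL'), R.ext]⟩

theorem ue_mul' (a a' : V) (hs : 0 < s) (hs' : 0 < s') (hL : IsLor L) (hL' : IsLor L') :
    ∃ e : Bool, ∀ z, Ue Q s L a (Ue Q s' L' a' z) =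
      cond e (Gm D) 1 (Ue Q (s * s') (fun m => sim 1 L 0 (L' m)) (sim s L a a') z) := by
  obtain ⟨e, he⟩ := R.ug_mul' a a' hs hs' hL hL'
  refine ⟨e, fun z => ?_⟩
  rw [← Ug_apply Q hs' hL', ← Ug_apply Q hs hL, ← Ug_apply Q (mul_pos hs hs') (ue_lor hL hL'),
    ← mul_apply_eq_comp, he, mul_apply_eq_comp]

/-- the group law on even vectors -/
theorem ug_mul_ev (a a' : V) (hs : 0 < s) (hs' : 0 < s') (hL : IsLor L) (hL' : IsLor L')
    {z : Completion D} (hz : Gm D z = z) : Ug Q s L a (Ug Q s' L' a' z) =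
      Ug Q (s * s') (fun m => sim 1 L 0 (L' m)) (sim s L a a') z := by
  obtain ⟨e, he⟩ := R.ug_mul' a a' hs hs' hL hL'
  rw [← mul_apply_eq_comp, he, mul_apply_eq_comp]
  cases e
  · rfl
  · rw [cond_true, R.gUz, hz]

theorem ue_mul_ev (a a' : V) (hs : 0 < s) (hs' : 0 < s') (hL : IsLor L) (hL' : IsLor L')
    {z : Completion D} (hz : Gm D z = z) : Ue Q s L a (Ue Q s' L' a' z) =
      Ue Q (s * s') (fun m => sim 1 L 0 (L' m)) (sim s L a a') z := by
  rw [← Ug_apply Q hs' hL', ← Ug_apply Q hs hL, ← Ug_apply Q (mul_pos hs hs') (ue_lor hL hL'),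
    R.ug_mul_ev a a' hs hs' hL hL' hz]

omit R in
theorem one0 (hs : 0 < s) (hL : IsLor L) (a : V) : Ug Q (s * s⁻¹) (fun m => sim 1 L 0 (linv L m))
    (sim s L a (-(sim s⁻¹ (linv L) 0 a))) = 1 := by
  have e : sim s L a (-(sim s⁻¹ (linv L) 0 a)) = 0 := by
    have h1 := ue_sim hs hL a 0
    rwa [Grp.sim_zero] at h1
  rw [mul_inv_cancel₀ hs.ne', linv_id hL, e]
  exact Grp.ug_one

/-- the adjoint, up to the grading -/
theorem ug_star' (hs : 0 < s) (hL : IsLor L) (a : V) :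
    Ug Q s L a ∈ unitary (Completion D →L[ℂ] Completion D) ∧ ∃ e : Bool, star (Ug Q s L a) =
      cond e (Gm D) 1 * Ug Q s⁻¹ (linv L) (-(sim s⁻¹ (linv L) 0 a)) := by
  obtain ⟨e, he⟩ := R.ug_mul' a (-(sim s⁻¹ (linv L) 0 a)) hs (inv_pos.2 hs) hL (isLor_linv hL)
  rw [one0 hs hL, mul_one] at he
  have h : Ug Q s L a * (cond e (Gm D) 1 * Ug Q s⁻¹ (linv L) (-(sim s⁻¹ (linv L) 0 a))) = 1 := by
    cases e
    · rw [cond_false, one_mul]; exact he
    · rw [cond_true, R.gU, ← mul_assoc, he, cond_true, R.g2]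
  exact (Grp.uni_of (Grp.ug_inner hs hL a) h).imp_right fun h => ⟨e, h⟩

theorem uni (s : ℝ) (L : Ix → V) (a : V) :
    Ug Q s L a ∈ unitary (Completion D →L[ℂ] Completion D) := by
  by_cases h : 0 < s ∧ IsLor L
  · exact (R.ug_star' h.1 h.2 a).1
  · rw [Ug, dif_neg h]
    exact one_mem _

theorem ug_surj (hs : 0 < s) (hL : IsLor L) (a : V) (h : OkL L (linv L)) :
    Ug Q s L a * Ug Q s⁻¹ (linv L) (-(sim s⁻¹ (linv L) 0 a)) = 1 := by
  rw [R.ug_mul a _ hs (inv_pos.2 hs) hL (isLor_linv hL) h, one0 hs hL]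

theorem ug_star (hs : 0 < s) (hL : IsLor L) (a : V) (h : OkL L (linv L)) :
    star (Ug Q s L a) = Ug Q s⁻¹ (linv L) (-(sim s⁻¹ (linv L) 0 a)) :=
  (Grp.uni_of (Grp.ug_inner hs hL a) (R.ug_surj hs hL a h)).2

theorem ue_surj (hs : 0 < s) (hL : IsLor L) (a : V) : Function.Surjective (Ue Q s L a) := fun z =>
  ⟨star (Ug Q s L a) z, by
    rw [← Ug_apply Q hs hL, ← mul_apply_eq_comp, (R.uni s L a).2]; rfl⟩

/-- `U` is surjective on the domain -/
theorem u_surj (hs : 0 < s) (hL : IsLor L) (a : V) (v : D) : ∃ w, Q.U s L a w = v := by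
  have e : sim s L a (-(sim s⁻¹ (linv L) 0 a)) = 0 := by
    have h1 := ue_sim hs hL a 0
    rwa [Grp.sim_zero] at h1
  rcases R.gr.mul s L a s⁻¹ (linv L) (-(sim s⁻¹ (linv L) 0 a)) hs (inv_pos.2 hs) hL
    (isLor_linv hL) with h | h
  · exact ⟨_, by rw [h v, mul_inv_cancel₀ hs.ne', linv_id hL, e, Uone]⟩
  · exact ⟨_, by rw [h.2.2 (Gd v), mul_inv_cancel₀ hs.ne', linv_id hL, e, Uone]; exact R.gdd v⟩

omit R in
theorem ug_vac (s : ℝ) (L : Ix → V) (a : V) : Ug Q s L a (om Q) = om Q := by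
  by_cases h : 0 < s ∧ IsLor L
  · rw [om, Grp.coe h.1 h.2, Q.U_vac _ _ _ h.1 h.2]
  · rw [Ug, dif_neg h]
    rfl

/-- conjugation of the elements of the groups `AN` is exact -/
theorem ug_cj {M M' : Ix → V} {b : V} (a : V) (hs : 0 < s) (hL : IsLor L) (hM : IsLor M)
    (hM' : IsLor M') (hb : IsNull b) (h : AN b M)
    (e : ∀ x, sim 1 M' 0 (sim 1 L 0 x) = sim 1 L 0 (sim 1 M 0 x)) :
    Ug Q s L a * Ug Q 1 M 0 = Ug Q 1 M' (a - sim 1 M' 0 a) * Ug Q s L a := dext fun v => by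
  rw [mul_apply_eq_comp, mul_apply_eq_comp, Grp.coe one_pos hM, Grp.coe hs hL, Grp.coe hs hL,
    Grp.coe one_pos hM', R.cj s L a M M' b v hs hL hM hM' hb h e]

theorem ue_cj {M M' : Ix → V} {b : V} (a : V) (z : Completion D) (hs : 0 < s) (hL : IsLor L)
    (hM : IsLor M) (hM' : IsLor M') (hb : IsNull b) (h : AN b M)
    (e : ∀ x, sim 1 M' 0 (sim 1 L 0 x) = sim 1 L 0 (sim 1 M 0 x)) :
    Ue Q s L a (Ue Q 1 M 0 z) = Ue Q 1 M' (a - sim 1 M' 0 a) (Ue Q s L a z) := by
  rw [← Ug_apply Q one_pos hM, ← Ug_apply Q hs hL, ← Ug_apply Q hs hL, ← Ug_apply Q one_pos hM',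
    ← mul_apply_eq_comp, R.ug_cj a hs hL hM hM' hb h e, mul_apply_eq_comp]

end Vale.Agent.P352.H15.RepZ

/-! ## the graded net -/

namespace Vale.Agent.P352.BW.LNmZ

open Vale.Agent.P352 Vale.Agent.P352.GF Vale.Agent.P352.H246 Vale.Agent.P352.H496
open Vale.Agent.P352.H15 Vale.Agent.P352.H755 Vale.Agent.P352X Vale.Agent.P352G
open Vale.Agent.P132 (ModData exists_modData)
open UniformSpace (Completion)

variable {D : Type*} [NormedAddCommGroup D] [InnerProductSpace ℂ D] [GrD D] {Q : Theory D}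
  {A : (V → V) → D → D} {𝒜 : Set V → VonNeumannAlgebra (Completion D)} (N : LNmZ Q A 𝒜)
  {X : Completion D →L[ℂ] Completion D} {O : Set V} {a b : V}
include N

theorem g0 : G0 D := N.toRepZ.g0

theorem evp_mem (hX : X ∈ 𝒜 O) : evp' X ∈ 𝒜 O := P352G.evp_mem hX (N.gam O X hX)

theorem odp_mem (hX : X ∈ 𝒜 O) : odp X ∈ 𝒜 O := P352G.odp_mem hX (N.gam O X hX)

theorem gam' (hX : X ∈ (𝒜 O).commutant) : Gm D * X * Gm D ∈ (𝒜 O).commutant :=
  N.g0.gam_comm (N.gam O) hX

theorem evp_mem' (hX : X ∈ (𝒜 O).commutant) : evp' X ∈ (𝒜 O).commutant :=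
  P352G.evp_mem hX (N.gam' hX)

theorem odp_mem' (hX : X ∈ (𝒜 O).commutant) : odp X ∈ (𝒜 O).commutant :=
  P352G.odp_mem hX (N.gam' hX)

theorem loc_tw (ha : IsNull a) (hb : IsNull b) (hab : GF.mdot a b = 1) (hX : X ∈ 𝒜 (Wdg b a 0)) :
    tw X ∈ (𝒜 (Wdg a b 0)).commutant := by
  have h := N.loc a b X ha hb hab hX
  rw [tw_eq]
  exact (𝒜 (Wdg a b 0)).commutant.toStarSubalgebra.smul_mem (add_mem h.1 h.2) _

theorem loc_ev (ha : IsNull a) (hb : IsNull b) (hab : GF.mdot a b = 1) (hX : X ∈ 𝒜 (Wdg b a 0))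
    (h : Ev X) : X ∈ (𝒜 (Wdg a b 0)).commutant := h.tw ▸ N.loc_tw ha hb hab hX

theorem loc_od (ha : IsNull a) (hb : IsNull b) (hab : GF.mdot a b = 1) (hX : X ∈ 𝒜 (Wdg b a 0))
    (h : Od X) : X * Gm D ∈ (𝒜 (Wdg a b 0)).commutant := h.tw ▸ N.loc_tw ha hb hab hX

/-- the vacuum is cyclic for the algebras of the nonempty open sets -/
theorem cyc (hO : IsOpen O) (hne : O.Nonempty) : Dense {z | ∃ X ∈ 𝒜 O, X (om Q) = z} :=
  rs_gen hO hne fun B f hB hf => N.fld O B f hB hf

/-- the vacuum is cyclic for the commutants of the wedge algebras -/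
theorem cyc' (ha : IsNull a) (hb : IsNull b) (hab : GF.mdot a b = 1) :
    Dense {z | ∃ Y ∈ (𝒜 (Wdg a b 0)).commutant, Y (om Q) = z} :=
  EG.SGx.dns (c := N.cg) a b ha hb hab

/-- even vectors are limits of vectors `X Ω` with even `X` -/
theorem cyc_ev (hO : IsOpen O) (hne : O.Nonempty) {z : Completion D} (hz : Gm D z = z) :
    z ∈ closure {z | ∃ X ∈ 𝒜 O, Ev X ∧ X (om Q) = z} := by
  have hc : Continuous fun w : Completion D => (2⁻¹ : ℂ) • (w + Gm D w) :=
    (continuous_id.add (Gm D).continuous).const_smul (2⁻¹ : ℂ)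
  have h : (2⁻¹ : ℂ) • (z + Gm D z) ∈ closure {z | ∃ X ∈ 𝒜 O, Ev X ∧ X (om Q) = z} := by
    refine map_mem_closure (f := fun w : Completion D => (2⁻¹ : ℂ) • (w + Gm D w)) hc
      (N.cyc hO hne z) ?_
    rintro _ ⟨X, hX, rfl⟩
    exact ⟨evp' X, N.evp_mem hX, N.g0.ev_evp X, N.g0.evp_apply X N.toRepZ.gv⟩
  have e : (2⁻¹ : ℂ) • (z + Gm D z) = z := by rw [hz]; module
  rwa [e] at h

/-- odd vectors are limits of vectors `X Ω` with odd `X` -/
theorem cyc_od (hO : IsOpen O) (hne : O.Nonempty) {z : Completion D} (hz : Gm D z = -z) :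
    z ∈ closure {z | ∃ X ∈ 𝒜 O, Od X ∧ X (om Q) = z} := by
  have hc : Continuous fun w : Completion D => (2⁻¹ : ℂ) • (w - Gm D w) :=
    (continuous_id.sub (Gm D).continuous).const_smul (2⁻¹ : ℂ)
  have h : (2⁻¹ : ℂ) • (z - Gm D z) ∈ closure {z | ∃ X ∈ 𝒜 O, Od X ∧ X (om Q) = z} := by
    refine map_mem_closure (f := fun w : Completion D => (2⁻¹ : ℂ) • (w - Gm D w)) hc
      (N.cyc hO hne z) ?_
    rintro _ ⟨X, hX, rfl⟩
    exact ⟨odp X, N.odp_mem hX, N.g0.od_odp X, N.g0.odp_apply X N.toRepZ.gv⟩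
  have e : (2⁻¹ : ℂ) • (z - Gm D z) = z := by rw [hz]; module
  rwa [e] at h

/-- the vacuum is separating for the wedge algebras -/
theorem sep (ha : IsNull a) (hb : IsNull b) (hab : GF.mdot a b = 1)
    (X : Completion D →L[ℂ] Completion D) (hX : X ∈ 𝒜 (Wdg a b 0)) (h0 : X (om Q) = 0) :
    X = 0 := by
  ext z
  refine Dense.induction (P := fun z => X z = 0) (N.cyc' ha hb hab) ?_
    (isClosed_eq X.continuous continuous_const) z
  rintro _ ⟨Y, hY, rfl⟩
  rw [← mul_apply_eq_comp, VonNeumannAlgebra.mem_commutant_iff.1 hY X hX, mul_apply_eq_comp, h0,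
    map_zero]

/-- modular data of the regions -/
theorem modR (ha : IsNull a) (hb : IsNull b) (hab : GF.mdot a b = 1)
    {c : ℝ} (hc : 0 ≤ c) : Nonempty (ModData (𝒜 (HM.Rg a b c)) (om Q)) := by
  refine exists_modData _ _ (H732G.norm_om Q) ?_ ?_
  · exact N.cyc (H732G.rg_open a b c) (H732G.rg_ne ha hb hab hc)
  · intro X hX h0
    refine N.sep ha hb hab X ?_ h0
    refine N.mono _ _ ?_ X hX
    rw [← HM.H584.Rg_zero]
    exact HM.H584.Rg_mono ha hb hab le_rfl hc

/-- modular data of the wedges -/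
theorem modW (ha : IsNull a) (hb : IsNull b) (hab : GF.mdot a b = 1) :
    Nonempty (ModData (𝒜 (Wdg a b 0)) (om Q)) := by
  rw [← HM.H584.Rg_zero]
  exact N.modR ha hb hab le_rfl

theorem alg {s : ℝ} {L : Ix → V} (hs : 0 < s) (hL : IsLor L) (y : V) (O : Set V)
    (X : Completion D →L[ℂ] Completion D) :
    X ∈ 𝒜 O ↔ Ug Q s L y * X * star (Ug Q s L y) ∈ 𝒜 (sim s L y '' O) :=
  EG.SGx.alg (c := N.cg) ⟨⟨s, L, y, hs, hL⟩, false⟩ O X

theorem affa {X X' : D → D} (h : Al Q O X X') : T.Afs (𝒜 O) X X' :=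
  EG.SGx.affa (c := N.cg) h

end Vale.Agent.P352.BW.LNmZ

end
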